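import Vale.Agent.P354XV.Defs
import Vale.Agent.P354RC.Pull

/-!
Uniform bounds on compact sets, unit normals, translations, and uniqueness for an ordinary
differential equation on a half open interval.
-/

set_option maxSynthPendingDepth 3

open scoped ContDiff
open Set Filter Topology Metric

noncomputable section

namespace Vale.Agent.P354UG

open Vale.Agent.P354n (R4 mink)
open Vale.Agent.P354I (X Dat ee)
open Vale.Agent.P354R (Met Vac Pull chr)
open Vale.Agent.P354RC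
open Vale.Agent.P354XE (Tw pt xs eT Bd)
open Vale.Agent.P354XV

/-- Uniqueness: the equation is only required in the open interval. -/
theorem ode_uniq {E P : Type} [NormedAddCommGroup E] [NormedSpace ℝ E] [NormedAddCommGroup P]
    [NormedSpace ℝ P] {G : P × E → E} {r : ℝ → ℝ} {q : ℝ → P} {x y : ℝ → E} {a b : ℝ}
    (hr : ContinuousOn r (Icc a b)) (hq : ContinuousOn q (Icc a b))
    (hx : ContinuousOn x (Icc a b)) (hy : ContinuousOn y (Icc a b))
    (hG : ∀ s ∈ Ico a b, ContDiffAt ℝ 1 G (q s, x s))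
    (dx : ∀ s ∈ Ioo a b, HasDerivAt x (r s • G (q s, x s)) s)
    (dy : ∀ s ∈ Ioo a b, HasDerivAt y (r s • G (q s, y s)) s) (h0 : x a = y a) :
    EqOn x y (Icc a b) := by
  refine IsClosed.Icc_subset_of_forall_mem_nhdsWithin (s := {s | x s = y s}) ?_ h0 fun s hs => ?_
  · rw [inter_comm]
    exact isClosed_Icc.isClosed_eq hx hy
  obtain ⟨K, t, ht, L⟩ := (hG s hs.2).exists_lipschitzOnWith
  have m : s ∈ Icc a b := Ico_subset_Icc_self hs.2
  have le : 𝓝[>] s ≤ 𝓝[Icc a b] s :=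
    nhdsWithin_le_of_mem (mem_of_superset (Ioc_mem_nhdsGT hs.2.2) fun z hz =>
      ⟨hs.2.1.trans hz.1.le, hz.2⟩)
  have e1 := (((hq s m).prodMk (hx s m)).tendsto.mono_left le).eventually_mem ht
  have e2 := (((hq s m).prodMk (hy s m)).tendsto.mono_left le).eventually_mem
    ((show x s = y s from hs.1) ▸ ht)
  have e3 := ((hr s m).norm.tendsto.mono_left le).eventually_lt_const (lt_add_one ‖r s‖)
  obtain ⟨c, hc, k⟩ := (nhdsGT_basis s).eventually_iff.1
    (((e1.and e2).and e3).and (Ioo_mem_nhdsGT hs.2.2))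
  filter_upwards [Ioo_mem_nhdsGT hc] with z hz
  have R0 : 0 ≤ (‖r s‖ + 1) * K := by positivity
  have key : ∀ δ ∈ Ioo s z, dist (x z) (y z) ≤
      dist (x δ) (y δ) * Real.exp ((‖r s‖ + 1) * K * (z - δ)) := by
    intro δ hδ
    have sub : ∀ u ∈ Ico δ z, u ∈ Ioo s c := fun u hu =>
      ⟨hδ.1.trans_le hu.1, hu.2.trans hz.2⟩
    have sub2 : Icc δ z ⊆ Icc a b :=
      Icc_subset_Icc (hs.2.1.trans hδ.1.le) (k hz).2.2.le
    have io : ∀ u ∈ Ico δ z, u ∈ Ioo a b := fun u hu =>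
      ⟨hs.2.1.trans_lt (k (sub u hu)).2.1, (k (sub u hu)).2.2⟩
    refine dist_le_of_trajectories_ODE_of_mem (K := ⟨_, R0⟩) (v := fun u w => r u • G (q u, w))
      (s := fun u => {w | (q u, w) ∈ t}) (fun u hu => ?_) (hx.mono sub2)
      (fun u hu => (dx u (io u hu)).hasDerivWithinAt) (fun u hu => (k (sub u hu)).1.1.1)
      (hy.mono sub2) (fun u hu => (dy u (io u hu)).hasDerivWithinAt)
      (fun u hu => (k (sub u hu)).1.1.2) le_rfl z ⟨hδ.2.le, le_rfl⟩
    refine LipschitzOnWith.of_dist_le_mul fun v hv w hw => ?_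
    have := L.dist_le_mul _ hv _ hw
    rw [dist_prod_same_left] at this
    rw [dist_smul₀]
    exact (mul_le_mul (k (sub u hu)).1.2.le this dist_nonneg (by positivity)).trans_eq
      (mul_assoc _ _ _).symm
  have lim : Tendsto (fun δ => dist (x δ) (y δ) * Real.exp ((‖r s‖ + 1) * K * (z - δ))) (𝓝[>] s)
      (𝓝 (dist (x s) (y s) * Real.exp ((‖r s‖ + 1) * K * (z - s)))) :=
    (((hx s m).tendsto.mono_left le).dist ((hy s m).tendsto.mono_left le)).mul
      ((Continuous.tendsto (by fun_prop) s).mono_left nhdsWithin_le_nhds)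
  rw [show x s = y s from hs.1, dist_self, zero_mul] at lim
  exact dist_le_zero.1 (ge_of_tendsto lim (mem_of_superset (Ioo_mem_nhdsGT hz.1) key))

variable {g g' : Tw} {h : R4 → B2} {D : Set R4} {p : R4} {f : R4 → ℝ} {k : ℕ}

theorem sig_tl (s : Sig g p) : ∃ u, g p u u = -1 := by
  obtain ⟨L, l, i, e⟩ := s
  obtain ⟨u, hu⟩ := LinearMap.injective_iff_surjective.1
    (show Function.Injective (IsLinearMap.mk' L l) from i) eT
  refine ⟨u, ?_⟩
  rw [e, show L u = eT from hu]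
  simp [mink, eT, P354n.cu, P354n.cv, P354n.c1, P354n.c2]

theorem nice_mono {B B' : ℝ} (H : Nice k B g f p) (h0 : 0 < B) (hB : B ≤ B') :
    Nice k B' g f p := by
  refine ⟨fun j hj v w => (H.bd j hj v w).trans (mul_le_mul_of_nonneg_right hB (by positivity)),
    fun v hv => (H.sp v hv).trans (mul_le_mul_of_nonneg_right hB ?_), ?_⟩
  · exact nonneg_of_mul_nonneg_right ((sq_nonneg _).trans (H.sp v hv)) h0
  · obtain ⟨u, h1, h2⟩ := H.tl
    have : g p u u ≤ 0 := by
      by_contra c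
      linarith [mul_pos h0 (not_le.1 c)]
    exact ⟨u, h1.trans hB, (mul_le_mul_of_nonpos_right hB this).trans h2⟩

theorem bd_of (r : Rp g h D) (hp : p ∈ D) {B : ℝ} (H : ∀ j ≤ k, ‖iteratedFDeriv ℝ j h p‖ ≤ B) :
    Bd k g p B := by
  intro j hj v w
  have e : (fun x => g x v w) =ᶠ[𝓝 p] fun x => h x v w :=
    mem_of_superset (r.op.mem_nhds hp) fun x hx => r.eq x hx v w
  have t : (j : ℕ∞ω) ≤ ∞ := by exact_mod_cast le_top
  rw [(e.iteratedFDeriv ℝ j).eq_of_nhds]
  refine (norm_iteratedFDeriv_clm_apply_const ((r.at hp).clm_apply contDiffAt_const) t).trans ?_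
  have := (norm_iteratedFDeriv_clm_apply_const (c := v) (r.at hp) t).trans
    (mul_le_mul_of_nonneg_left (H j hj) (norm_nonneg v))
  exact (mul_le_mul_of_nonneg_left this (norm_nonneg w)).trans_eq (by ring)

theorem nice_at (k : ℕ) (L : Lv g D) (hp : p ∈ D) (hf : ContDiffAt ℝ 1 f p) (s : Spl g f p) :
    ∃ B > 0, ∀ᶠ q in 𝓝 p, q ∈ D ∧ Nice k B g f q := by
  obtain ⟨h, r⟩ := rp_of_met L.isOpen L.met
  have c0 := (r.at hp).continuousAt
  have e1 : ∀ᶠ q in 𝓝 p, ∀ j : Fin (k + 1), ‖iteratedFDeriv ℝ j h q‖ <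
      ∑ i : Fin (k + 1), ‖iteratedFDeriv ℝ i h p‖ + 1 := eventually_all.2 fun j =>
    ((r.at hp).continuousAt_iteratedFDeriv (by exact_mod_cast le_top)).norm.eventually_lt_const
      (lt_add_of_le_of_pos (Finset.single_le_sum (f := fun i : Fin (k + 1) =>
        ‖iteratedFDeriv ℝ i h p‖) (fun _ _ => norm_nonneg _) (Finset.mem_univ j)) one_pos)
  have c1 : ContinuousAt (fderiv ℝ f) p := (hf.fderiv_right (m := 0) (by simp)).continuousAt
  have c2 : ∀ v, ContinuousAt (fun z : R4 × R4 => max |fderiv ℝ f z.1 z.2| (h z.1 z.2 z.2))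
      (p, v) := fun v =>
    ((ContinuousAt.comp (f := Prod.fst) c1 continuousAt_fst).clm_apply continuousAt_snd).abs.max
      (((ContinuousAt.comp (f := Prod.fst) c0 continuousAt_fst).clm_apply
        continuousAt_snd).clm_apply continuousAt_snd)
  obtain ⟨c, c0', hc⟩ := (isCompact_sphere (0 : R4) 1).exists_forall_le'
    (f := fun v => max |fderiv ℝ f p v| (h p v v)) (a := 0)
    (fun v _ => (ContinuousAt.comp (f := fun v => (p, v)) (c2 v)
      (by fun_prop)).continuousWithinAt) fun v hv => by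
      by_cases e : fderiv ℝ f p v = 0
      · exact lt_max_of_lt_right (r.eq p hp v v ▸ s v (ne_of_mem_sphere hv one_ne_zero) e)
      · exact lt_max_of_lt_left (abs_pos.2 e)
  have e2 := (isCompact_sphere (0 : R4) 1).eventually_forall_of_forall_eventually (x₀ := p)
    (P := fun q v => c / 2 < max |fderiv ℝ f q v| (h q v v)) fun v hv =>
      (c2 v).eventually_const_lt ((half_lt_self c0').trans_le (hc v hv))
  obtain ⟨u, hu⟩ := sig_tl (L.sig p hp)
  have e3 : ∀ᶠ q in 𝓝 p, h q u u < -(1 / 2) :=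
    ((c0.clm_apply continuousAt_const).clm_apply continuousAt_const).eventually_lt_const
      (((r.eq p hp u u).symm.trans hu).trans_lt (by norm_num))
  refine ⟨∑ i : Fin (k + 1), ‖iteratedFDeriv ℝ i h p‖ + 1 + (2 / c + (‖u‖ + 2)), by positivity, ?_⟩
  have s0 : 0 ≤ ∑ i : Fin (k + 1), ‖iteratedFDeriv ℝ i h p‖ := by positivity
  have s1 : 0 < 2 / c := by positivity
  have s2 := norm_nonneg u
  filter_upwards [L.isOpen.mem_nhds hp, e1, e2, e3] with q hq k1 k2 k3
  refine ⟨hq, bd_of r hq fun j hj => (k1 ⟨j, Nat.lt_succ_of_le hj⟩).le.trans (by linarith),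
    fun v hv => ?_, u, by linarith, ?_⟩
  · rcases eq_or_ne v 0 with rfl | v0
    · simp [r.eq q hq]
    have n0 := norm_pos_iff.2 v0
    have k4 := k2 (‖v‖⁻¹ • v) (mem_sphere_zero_iff_norm.2 (norm_smul_inv_norm v0))
    simp only [map_smul, hv, mul_zero, abs_zero, smul_apply, smul_eq_mul] at k4
    have k5 : c / 2 < ‖v‖⁻¹ * (‖v‖⁻¹ * h q v v) :=
      (lt_max_iff.1 k4).resolve_left (not_lt.2 (half_pos c0').le)
    have k6 : ‖v‖ ^ 2 ≤ 2 / c * h q v v := by
      rw [div_mul_eq_mul_div, le_div_iff₀ c0']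
      rw [← mul_assoc, ← mul_inv, ← div_eq_inv_mul, lt_div_iff₀ (by positivity)] at k5
      nlinarith
    have k7 : 0 ≤ h q v v := nonneg_of_mul_nonneg_right ((sq_nonneg _).trans k6) s1
    rw [r.eq q hq]
    exact k6.trans (mul_le_mul_of_nonneg_right (by linarith) k7)
  · rw [r.eq q hq]
    nlinarith

/-- Uniform bounds near a compact set. -/
theorem nice_cpt (k : ℕ) (L : Lv g D) {K : Set R4} (hK : IsCompact K)
    (H : ∀ p ∈ K, p ∈ D ∧ ContDiffAt ℝ 1 f p ∧ Spl g f p) :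
    ∃ B > 0, ∃ δ > 0, ∀ p ∈ K, ∀ q, dist q p ≤ δ → q ∈ D ∧ Nice k B g f q := by
  have key : ∃ B > 0, ∀ᶠ q in 𝓝ˢ K, q ∈ D ∧ Nice k B g f q := by
    refine hK.induction_on (p := fun K => ∃ B > 0, ∀ᶠ q in 𝓝ˢ K, q ∈ D ∧ Nice k B g f q)
      ⟨1, one_pos, by simp⟩ (fun s t st ⟨B, B0, e⟩ => ⟨B, B0, e.filter_mono (nhdsSet_mono st)⟩)
      (fun s t ⟨B, B0, e⟩ ⟨B', B0', e'⟩ => ⟨max B B', lt_max_of_lt_left B0, ?_⟩) fun p hp => ?_
    · rw [nhdsSet_union, eventually_sup]
      exact ⟨e.mono fun q a => ⟨a.1, nice_mono a.2 B0 (le_max_left _ _)⟩,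
        e'.mono fun q a => ⟨a.1, nice_mono a.2 B0' (le_max_right _ _)⟩⟩
    · obtain ⟨B, B0, e⟩ := nice_at k L (H p hp).1 (H p hp).2.1 (H p hp).2.2
      exact ⟨_, mem_nhdsWithin_of_mem_nhds e.eventually_nhds, B, B0,
        eventually_nhdsSet_iff_forall.2 fun q a => a⟩
  obtain ⟨B, B0, e⟩ := key
  obtain ⟨δ, δ0, k⟩ := (hasBasis_nhdsSet_cthickening hK).eventually_iff.1 e
  exact ⟨B, B0, δ, δ0, fun p hp q a => k (mem_cthickening_of_dist_le q p δ K hp a)⟩

/-! ### Normals -/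

theorem spl_fst : Spl g Prod.fst p ↔ ∀ v : R4, v ≠ 0 → v.1 = 0 → 0 < g p v v := by
  simp only [Spl, fderiv_fst, ContinuousLinearMap.coe_fst']

theorem nrm_ex (L : Lv g D) (hp : p ∈ D) (s : Spl g Prod.fst p) :
    ∃ n : R4, g p n n = -1 ∧ 0 < n.1 ∧ ∀ v : R4, v.1 = 0 → g p v n = 0 := by
  obtain ⟨h, r⟩ := rp_of_met L.isOpen L.met
  obtain ⟨u, hu⟩ := sig_tl (L.sig p hp)
  rw [spl_fst] at s
  simp only [r.eq p hp] at hu s ⊢
  obtain ⟨m, hm⟩ : ∃ m, ∀ v, h p m v = -v.1 :=
    ⟨_, fun v => congrArg (· v) (r.inv hp (-ContinuousLinearMap.fst ℝ ℝ (ℝ × ℝ × ℝ)))⟩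
  have nn : ∀ v : R4, v.1 = 0 → 0 ≤ h p v v := fun v hv => by
    rcases eq_or_ne v 0 with rfl | v0
    exacts [by simp, (s v v0 hv).le]
  have m0 : 0 < m.1 := by
    rcases lt_trichotomy 0 m.1 with c | c | c
    · exact c
    · have m0 : m = 0 := by
        by_contra a
        have := s m a c.symm
        rw [hm] at this
        linarith
      have := hm eT
      simp [m0, eT] at this
    · have k := nn (u - (u.1 / m.1) • m) (by simp [div_mul_cancel₀ _ c.ne])
      simp only [map_sub, map_smul, sub_apply, smul_apply, smul_eq_mul, hu, hm,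
        r.symm p hp u m] at k
      have e : u.1 / m.1 * m.1 = u.1 := div_mul_cancel₀ _ c.ne
      have e2 : 0 ≤ (u.1 / m.1) ^ 2 * -m.1 := mul_nonneg (sq_nonneg _) (by linarith)
      generalize u.1 / m.1 = t at *
      rw [← e] at k
      nlinarith
  have q0 := Real.sqrt_pos.2 m0
  refine ⟨(√m.1)⁻¹ • m, ?_, mul_pos (inv_pos.2 q0) m0, fun v hv => ?_⟩
  · simp only [map_smul, smul_apply, smul_eq_mul, hm]
    field_simp
    rw [Real.sq_sqrt m0.le]
  · simp only [map_smul, smul_eq_mul, r.symm p hp v m, hm, hv, neg_zero, mul_zero]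

/-- An isometry which fixes the slice and keeps the side is the identity. -/
theorem iso_id (L : Lv g D) (hp : p ∈ D) (s : Spl g Prod.fst p) {A : R4 →L[ℝ] R4}
    (e : ∀ v w, g p v w = g p (A v) (A w)) (k : ∀ v : R4, v.1 = 0 → A v = v)
    (o : 0 < (A eT).1) (v : R4) : A v = v := by
  obtain ⟨n, n1, n2, n3⟩ := nrm_ex L hp s
  obtain ⟨h, r⟩ := rp_of_met L.isOpen L.met
  rw [spl_fst] at s
  simp only [r.eq p hp] at e s n1 n3
  have dec : ∀ v : R4, ∃ t w, w.1 = 0 ∧ t * n.1 = v.1 ∧ v = t • n + w := fun v =>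
    ⟨v.1 / n.1, v - (v.1 / n.1) • n, by simp [div_mul_cancel₀ _ n2.ne'],
      div_mul_cancel₀ _ n2.ne', by abel⟩
  obtain ⟨t, w, w0, -, hw⟩ := dec (A n)
  have w1 : w = 0 := by
    by_contra a
    have k1 := e w n
    rw [k w w0, hw, map_add, map_smul, n3 w w0, smul_zero, zero_add] at k1
    exact (s w a w0).ne k1
  rw [w1, add_zero] at hw
  have t1 : t = 1 := by
    have k1 := e n n
    simp only [hw, map_smul, smul_apply, smul_eq_mul, n1] at k1
    obtain ⟨t', w', w0', k2, k3⟩ := dec eT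
    rw [k3, map_add, map_smul, k w' w0', hw] at o
    simp only [Prod.fst_add, Prod.smul_fst, smul_eq_mul, w0', add_zero] at o
    have k4 : t' * (t * n.1) = t := by
      rw [mul_left_comm, k2]
      exact mul_one t
    rw [k4] at o
    nlinarith
  obtain ⟨t', w', w0', -, k3⟩ := dec v
  rw [k3, map_add, map_smul, k w' w0', hw, t1, one_smul]

/-- Two metrics which agree to first order on a part of the slice induce the same data. -/
theorem in0_ex (L : Lv g D) {S : Set X} (H : ∀ y ∈ S, pt 0 y ∈ D ∧ Spl g Prod.fst (pt 0 y) ∧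
    g (pt 0 y) = g' (pt 0 y) ∧ chr g (pt 0 y) = chr g' (pt 0 y)) :
    ∃ d, ∀ y ∈ S, In0 g d y ∧ In0 g' d y := by
  choose! n hn using fun y (hy : y ∈ S) => nrm_ex L (H y hy).1 (H y hy).2.1
  refine ⟨⟨fun y => Matrix.of fun i k => g (pt 0 y) (pt 0 (ee i)) (pt 0 (ee k)),
    fun y => Matrix.of fun i k => -chr g (pt 0 y) (pt 0 (ee i)) (pt 0 (ee k)) (n y)⟩,
    fun y hy => ⟨?_, ?_⟩⟩
  · exact ⟨n y, (hn y hy).1, (hn y hy).2.1, fun i k => ⟨(hn y hy).2.2 _ rfl, rfl, rfl⟩⟩
  · unfold In0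
    rw [← (H y hy).2.2.1, ← (H y hy).2.2.2]
    exact ⟨n y, (hn y hy).1, (hn y hy).2.1, fun i k => ⟨(hn y hy).2.2 _ rfl, rfl, rfl⟩⟩

/-- Equality on a set gives equality to first order on the closure of the interior. -/
theorem first_eq (L : Lv g D) (L' : Lv g' D) {W : Set R4} (hW : IsOpen W) (e : EqOn g g' W)
    (hp : p ∈ D) (c : p ∈ closure W) : g p = g' p ∧ chr g p = chr g' p := by
  obtain ⟨h, r⟩ := rp_of_met L.isOpen L.met
  obtain ⟨h', r'⟩ := rp_of_met L'.isOpen L'.met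
  have e0 : EqOn h h' (W ∩ D) := fun q hq => by
    refine ContinuousLinearMap.ext fun v => ContinuousLinearMap.ext fun w => ?_
    rw [← r.eq q hq.2, ← r'.eq q hq.2, e hq.1]
  have e1 : EqOn (fun q => (h q, fderiv ℝ h q)) (fun q => (h' q, fderiv ℝ h' q)) (W ∩ D) :=
    fun q hq => Prod.ext (e0 hq) (EventuallyEq.fderiv_eq
      (mem_of_superset ((hW.inter L.isOpen).mem_nhds hq) e0))
  have c' : p ∈ closure (W ∩ D) := L.isOpen.closure_inter ⟨c, hp⟩
  have e2 := tendsto_nhds_unique_of_frequently_eq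
    ((r.at hp).prodMk (at_fd (r.at hp))).continuousAt.tendsto
    ((r'.at hp).prodMk (at_fd (r'.at hp))).continuousAt.tendsto
    ((mem_closure_iff_frequently.1 c').mono e1)
  constructor
  · funext v w
    rw [r.eq p hp, r'.eq p hp, show h p = h' p from congrArg Prod.fst e2]
  · funext a b c
    rw [r.chr hp, r'.chr hp, C1_ap, C1_ap,
      show fderiv ℝ h p = fderiv ℝ h' p from congrArg Prod.snd e2]

/-! ### Translations -/

theorem lv_shift (L : Lv g D) (a : R4) : Lv (fun x => g (x + a)) {x | x + a ∈ D} := by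
  have P : Pull (· + a) (fun x => g (x + a)) {x | x + a ∈ D} g D := by
    have e : ∀ y : R4, fderiv ℝ (· + a) y = ContinuousLinearMap.id ℝ R4 := fun y =>
      ((hasFDerivAt_id y).add_const a).fderiv
    exact ⟨L.isOpen.preimage (by fun_prop), L.isOpen, L.met, by fun_prop, fun _ h => h,
      fun y _ => by rw [e]; exact Function.injective_id, fun y _ v w => by rw [e]; rfl⟩
  exact ⟨P.open', k2.1 _ _ _ _ _ P, k2.2.1 _ _ _ _ _ P L.vac, fun x hx => L.sig _ hx⟩

theorem jet_shift (m : ℕ) (g : Tw) (a x : R4) :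
    jet m (fun x => g (x + a)) x = jet m g (x + a) := by
  funext k α i j
  unfold jet
  rw [iteratedFDeriv_comp_add_right (f := fun z => g z (bs i) (bs j))]

theorem chr_shift (g : Tw) (a x : R4) : chr (fun x => g (x + a)) x = chr g (x + a) := by
  funext u v w
  simp only [chr, P354n.deriv, lineDeriv, add_right_comm x _ a]

theorem gq_shift {N : P354XV.Nat} {q : R4} {Y : R4 → R4} {a x : R4} (H : Gq N q g Y (x + a)) :
    Gq N q (fun x => g (x + a)) (fun x => Y (x + a)) x := by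
  unfold Gq
  rw [jet_shift, chr_shift, fderiv_comp_add_right]
  exact H

end Vale.Agent.P354UG
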