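import Vale.Agent.P354UG.Nice

/-!
UG: uniqueness in the gauge.
-/

set_option maxSynthPendingDepth 3

open scoped ContDiff
open Set Filter Topology Metric

noncomputable section

namespace Vale.Agent.P354UG

open Vale.Agent.P354n (R4 mink)
open Vale.Agent.P354I (X Dat ee)
open Vale.Agent.P354R (Met Vac Pull chr)
open Vale.Agent.P354RC
open Vale.Agent.P354XE (Tw pt xs eT Bd)
open Vale.Agent.P354XU (lens)
open Vale.Agent.P354XV

/-- Two vacuum metrics in the same gauge on a compact lens. -/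
structure Hy (N : P354XV.Nat) {ι : Type} (φ : ι → R4 → ℝ) (T : ℝ) (g g' : Tw) (D : Set R4)
    (π Y : R4 → R4) : Prop where
  lv : Lv g D
  lv' : Lv g' D
  cπ : ContinuousOn π D
  sY : ContDiffOn ℝ ∞ Y D
  sφ : ∀ i, ContDiff ℝ 1 (φ i)
  cpt : IsCompact (clens φ T)
  sub : clens φ T ⊆ D
  star : P354XU.Star (clens φ T)
  ver : ∀ p ∈ clens φ T, (Y p).1 ≠ 0 ∧ (Y p).2 = 0
  spl : ∀ p ∈ clens φ T, Spl g Prod.fst p
  cau : ∀ p ∈ clens φ T, ∀ i, 0 < fderiv ℝ (φ i) p eT ∧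
    ∀ v, g p v v ≤ 0 → 0 < v.1 → 0 < fderiv ℝ (φ i) p v
  gau : ∀ p ∈ clens φ T, Gq N (π p) g Y p ∧ Gq N (π p) g' Y p

/-- UG: they are equal if they are equal on the base and induce the same data. -/
def UG : Prop :=
  ∀ (N : P354XV.Nat) (ι : Type) [Fintype ι] (φ : ι → R4 → ℝ) T g g' D π Y d, N.Is →
    Hy N φ T g g' D π Y →
    (∀ y, pt 0 y ∈ clens φ T → g (pt 0 y) = g' (pt 0 y) ∧ In0 g d y ∧ In0 g' d y) →
    EqOn g g' (clens φ T)

variable {g g' : Tw} {h : R4 → B2} {D W : Set R4} {p x : R4} {N : P354XV.Nat}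
  {b Y π : R4 → R4} {ι : Type} {φ : ι → R4 → ℝ} {T : ℝ}

/-- The vector field of the gauge equation. -/
def gv (N : P354XV.Nat) (g : Tw) (h : R4 → B2) (z : R4 × R4 × R4) : R4 × R4 :=
  (z.2.2, N.F (z.1, jet N.m g z.2.1, z.2.2) - Gm h z.2.1 z.2.2 z.2.2)

theorem jet_cd (m : ℕ) (L : Lv g D) (hx : x ∈ D) : ContDiffAt ℝ ∞ (jet m g) x :=
  contDiffAt_pi.2 fun k => contDiffAt_pi.2 fun α => contDiffAt_pi.2 fun i =>
    contDiffAt_pi.2 fun j => (ContinuousMultilinearMap.apply ℝ (fun _ : Fin k => R4) ℝ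
      fun l => bs (α l)).contDiff.contDiffAt.comp x
      (((L.met.smooth _ _).contDiffAt (L.isOpen.mem_nhds hx)).iteratedFDeriv_right
        (by exact_mod_cast le_top))

theorem gm_cd {E : Type} [NormedAddCommGroup E] [NormedSpace ℝ E] {c u v : E → R4} {z : E}
    (r : Rp g h D) (hz : c z ∈ D) (hc : ContDiffAt ℝ ∞ c z) (hu : ContDiffAt ℝ ∞ u z)
    (hv : ContDiffAt ℝ ∞ v z) : ContDiffAt ℝ ∞ (fun z => Gm h (c z) (u z) (v z)) z := by
  have k := (at_fd (r.at hz)).comp z hc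
  exact ((r.inv_cd hz).comp z hc).clm_apply
    (((((k.clm_apply hu).clm_apply hv).add ((k.clm_apply hv).clm_apply hu)).sub
      (((ContinuousLinearMap.flipₗᵢ ℝ R4 R4 ℝ).contDiff.contDiffAt.comp _
        (((ContinuousLinearMap.flipₗᵢ ℝ R4 R4 (R4 →L[ℝ] ℝ)).contDiff.contDiffAt.comp _
          k).clm_apply hu)).clm_apply hv)).const_smul _)

theorem gv_cd (hN : N.Is) (L : Lv g D) (r : Rp g h D) {z : R4 × R4 × R4} (hz : z.2.1 ∈ D)
    (hU : (z.1, jet N.m g z.2.1, z.2.2) ∈ N.U) : ContDiffAt ℝ ∞ (gv N g h) z := by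
  have k1 : ContDiffAt ℝ ∞ (fun z : R4 × R4 × R4 => (z.1, jet N.m g z.2.1, z.2.2)) z :=
    contDiffAt_fst.prodMk (((jet_cd N.m L hz).comp z contDiffAt_snd.fst).prodMk
      contDiffAt_snd.snd)
  exact contDiffAt_snd.snd.prodMk ((ContDiffAt.comp (g := N.F) z
    (hN.sm.contDiffAt (hN.opn.mem_nhds hU)) k1).sub
    (gm_cd r hz contDiffAt_snd.fst contDiffAt_snd.snd contDiffAt_snd.snd))

/-- The gauge equation along an isometry. -/
theorem gq_ode (hN : N.Is) (P : Pull b g W g' D) (L : Lv g' D) (r : Rp g' h D) (hx : x ∈ W)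
    (hd : 0 < LinearMap.det (fderiv ℝ b x : R4 →ₗ[ℝ] R4)) (hY : ContDiffAt ℝ ∞ Y x)
    (H : Gq N p g Y x) : fderiv ℝ (fun z => (b z, fderiv ℝ b z (Y z))) x (Y x) =
      gv N g' h (p, b x, fderiv ℝ b x (Y x)) := by
  have r0 := rp_pb P r
  have k := p_at P hx
  have e : fderiv ℝ Y x (Y x) + Gm (pb h b) x (Y x) (Y x) = N.F (p, jet N.m g x, Y x) :=
    r0.ext hx fun c => by
      rw [map_add, add_apply, r0.gm hx, ← r0.chr hx, ← r0.eq x hx, ← r0.eq x hx]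
      exact H.2 c
  have e2 := congrArg (fderiv ℝ b x) e
  rw [((hN.nat b g W g' D P L x hx hd p (Y x)).2.2 H.1), map_add, Gm_pb P r hx] at e2
  rw [((at_df k).hasFDerivAt.prodMk (at_df ((at_fd k).clm_apply hY)).hasFDerivAt).fderiv]
  refine Prod.ext rfl ?_
  show fderiv ℝ (fun z => fderiv ℝ b z (Y z)) x (Y x) = _ - _
  rw [fd_ap (at_fd k) hY, ← e2]
  abel

theorem gq_line (hN : N.Is) (P : Pull b g W g' D) (L : Lv g' D) (r : Rp g' h D) {s : ℝ}
    {y : ℝ × ℝ × ℝ} (hx : (s, y) ∈ W) (hd : 0 < LinearMap.det (fderiv ℝ b (s, y) : R4 →ₗ[ℝ] R4))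
    (hY : ContDiffAt ℝ ∞ Y (s, y)) (v : (Y (s, y)).1 ≠ 0 ∧ (Y (s, y)).2 = 0)
    (H : Gq N p g Y (s, y)) :
    HasDerivAt (fun s => (b (s, y), fderiv ℝ b (s, y) (Y (s, y))))
      (((Y (s, y)).1)⁻¹ • gv N g' h (p, b (s, y), fderiv ℝ b (s, y) (Y (s, y)))) s := by
  have k := p_at P hx
  have e : eT = ((Y (s, y)).1)⁻¹ • Y (s, y) :=
    Prod.ext (inv_mul_cancel₀ v.1).symm (by simp [eT, v.2])
  rw [← gq_ode hN P L r hx hd hY H, ← map_smul, ← e]
  exact (at_df (k.prodMk ((at_fd k).clm_apply hY))).hasFDerivAt.comp_hasDerivAt s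
    ((hasDerivAt_id s).prodMk (hasDerivAt_const s y))

theorem pull_id (L : Lv g D) : Pull id g D g D :=
  ⟨L.isOpen, L.isOpen, L.met, contDiffOn_id, mapsTo_id _,
    fun y _ => by rw [fderiv_id]; exact Function.injective_id,
    fun y _ v w => by rw [fderiv_id]; rfl⟩

theorem pt_xs (p : R4) : pt p.1 (xs p) = p := rfl

theorem Hy.below (H : Hy N φ T g g' D π Y) (hp : p ∈ clens φ T) {s : ℝ} (h0 : 0 ≤ s)
    (h1 : s < p.1) (i : ι) : φ i (s, p.2) < φ i p := by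
  have d : ∀ t, HasDerivAt (fun t => φ i (t, p.2)) (fderiv ℝ (φ i) (t, p.2) eT) t := fun t =>
    ((H.sφ i).differentiable (by simp) _).hasFDerivAt.comp_hasDerivAt t
      ((hasDerivAt_id t).prodMk (hasDerivAt_const t p.2))
  refine strictMonoOn_of_deriv_pos (convex_Icc 0 p.1)
    (fun t _ => (d t).continuousAt.continuousWithinAt) (fun t ht => ?_) ⟨h0, h1.le⟩
    ⟨hp.1.1, le_rfl⟩ h1
  rw [(d t).deriv]
  exact (H.cau _ (H.star p hp t (Icc_subset_uIcc (interior_subset ht))) i).1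

/-- The open lens. -/
def ol (φ : ι → R4 → ℝ) (s : ℝ) : Set R4 := {p | p.1 ∈ Ioo 0 s ∧ ∀ i, φ i p < 0}

theorem ol_open [Fintype ι] (c : ∀ i, Continuous (φ i)) (s : ℝ) : IsOpen (ol φ s) := by
  rw [show ol φ s = Prod.fst ⁻¹' Ioo 0 s ∩ ⋂ i, {p | φ i p < 0} from by ext; simp [ol]]
  exact (isOpen_Ioo.preimage continuous_fst).inter
    (isOpen_iInter_of_finite fun i => isOpen_lt (c i) continuous_const)

theorem ol_sub {s : ℝ} (hs : s ≤ T) : ol φ s ⊆ lens φ T := fun _ hp =>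
  ⟨⟨hp.1.1.le, hp.1.2.le.trans hs⟩, hp.2⟩

theorem lens_sub : lens φ T ⊆ clens φ T := fun _ hp => ⟨hp.1, fun i => (hp.2 i).le⟩

theorem Hy.clo (H : Hy N φ T g g' D π Y) (hp : p ∈ clens φ T) (h0 : 0 < p.1) :
    p ∈ closure (ol φ p.1) :=
  mem_closure_of_tendsto (b := 𝓝[<] p.1) (f := fun s : ℝ => ((s, p.2) : R4))
    ((Continuous.tendsto' (by fun_prop) p.1 p rfl).mono_left nhdsWithin_le_nhds)
    (mem_of_superset (Ioo_mem_nhdsLT h0) fun _ hs =>
      ⟨hs, fun i => (H.below hp hs.1.le hs.2 i).trans_le (hp.2 i)⟩)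

theorem Hy.cpt' (H : Hy N φ T g g' D π Y) {s : ℝ} (hs : s ≤ T) :
    clens φ s ⊆ clens φ T ∧ IsCompact (clens φ s) := by
  have e : clens φ s = clens φ T ∩ {p | p.1 ≤ s} :=
    Subset.antisymm (fun p hp => ⟨⟨⟨hp.1.1, hp.1.2.trans hs⟩, hp.2⟩, hp.1.2⟩)
      fun p hp => ⟨⟨hp.1.1.1, hp.2⟩, hp.1.2⟩
  rw [e]
  exact ⟨inter_subset_left, H.cpt.inter_right (isClosed_le continuous_fst continuous_const)⟩

/-- The lens of smaller height. -/
theorem Hy.mono (H : Hy N φ T g g' D π Y) {s : ℝ} (hs : s ≤ T) : Hy N φ s g g' D π Y :=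
  have k := (H.cpt' hs).1
  ⟨H.lv, H.lv', H.cπ, H.sY, H.sφ, (H.cpt' hs).2, k.trans H.sub,
    fun p hp t ht => ⟨⟨(H.star p (k hp) t ht).1.1, by
      rw [uIcc_of_le hp.1.1] at ht
      exact ht.2.trans hp.1.2⟩, (H.star p (k hp) t ht).2⟩,
    fun p hp => H.ver p (k hp), fun p hp => H.spl p (k hp), fun p hp => H.cau p (k hp),
    fun p hp => H.gau p (k hp)⟩

/-- An isometry between the two metrics which fixes the base is the identity. -/
theorem Hy.fix [Fintype ι] (hN : N.Is) (H : Hy N φ T g g' D π Y) {O : Set R4} (hO : IsOpen O)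
    (sub : lens φ T ⊆ O) (sb : ContDiffOn ℝ ∞ b O) (mp : MapsTo b O D)
    (b0 : ∀ p ∈ O, p.1 = 0 → b p = p) (e0 : ∀ p ∈ lens φ T, p.1 = 0 → g p = g' p)
    (k : ∀ p ∈ lens φ T, 0 < LinearMap.det (fderiv ℝ b p : R4 →ₗ[ℝ] R4) ∧
      (p.1 = 0 → 0 < (fderiv ℝ b p eT).1) ∧
      ∀ v w, g p v w = g' (b p) (fderiv ℝ b p v) (fderiv ℝ b p w)) :
    EqOn b id (ol φ T) ∧ EqOn g g' (ol φ T) := by
  obtain ⟨h, r⟩ := rp_of_met H.lv'.isOpen H.lv'.met
  have oo := ol_open (fun i => (H.sφ i).continuous) T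
  have P : Pull b g (ol φ T) g' D := ⟨oo, H.lv'.isOpen, H.lv'.met,
    sb.mono ((ol_sub le_rfl).trans sub), mp.mono_left ((ol_sub le_rfl).trans sub),
    fun y hy => LinearMap.ker_eq_bot.1 (by
      by_contra c
      exact (k y (ol_sub le_rfl hy)).1.ne' (LinearMap.det_eq_zero_iff_ker_ne_bot.2 c)),
    fun y hy => (k y (ol_sub le_rfl hy)).2.2⟩
  have key : EqOn b id (ol φ T) := by
    intro p hp
    have hp' := lens_sub (ol_sub le_rfl hp)
    have ln : ∀ s ∈ Icc 0 p.1, (s, p.2) ∈ lens φ T := fun s hs =>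
      ⟨⟨hs.1, hs.2.trans hp.1.2.le⟩, fun i => hs.2.eq_or_lt.elim (fun e => e ▸ hp.2 i)
        fun c => (H.below hp' hs.1 c i).trans (hp.2 i)⟩
    have inD : ∀ s ∈ Icc 0 p.1, (s, p.2) ∈ D := fun s hs => H.sub (lens_sub (ln s hs))
    have cY : ∀ s ∈ Icc 0 p.1, ContDiffAt ℝ ∞ Y (s, p.2) := fun s hs =>
      H.sY.contDiffAt (H.lv.isOpen.mem_nhds (inD s hs))
    have cb : ∀ s ∈ Icc 0 p.1, ContDiffAt ℝ ∞ b (s, p.2) := fun s hs =>
      sb.contDiffAt (hO.mem_nhds (sub (ln s hs)))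
    have cl : ∀ {V : Type} [TopologicalSpace V] {F : R4 → V},
        (∀ s ∈ Icc 0 p.1, ContinuousAt F (s, p.2)) → ContinuousOn (fun s => F (s, p.2))
          (Icc 0 p.1) := fun hF s hs =>
      (ContinuousAt.comp (f := fun s : ℝ => ((s, p.2) : R4)) (hF s hs)
        (by fun_prop)).continuousWithinAt
    have l0 := ln 0 ⟨le_rfl, hp.1.1.le⟩
    have bb := b0 _ (sub l0) rfl
    have a0 : ∀ v, fderiv ℝ b (0, p.2) v = v := by
      refine iso_id H.lv (H.sub (lens_sub l0)) (H.spl _ (lens_sub l0))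
        (fun v w => by rw [(k _ l0).2.2, bb, e0 _ l0 rfl]) (fun v hv => ?_) ((k _ l0).2.1 rfl)
      have d1 : HasDerivAt (fun t : ℝ => ((0, p.2) : R4) + t • v) v 0 := by
        simpa using ((hasDerivAt_id (0 : ℝ)).smul_const v).const_add ((0, p.2) : R4)
      have d2 := (at_df (cb 0 ⟨le_rfl, hp.1.1.le⟩)).hasFDerivAt.comp_hasDerivAt_of_eq 0 d1
        (by simp)
      refine d2.unique (d1.congr_of_eventuallyEq ?_)
      filter_upwards [d1.continuousAt.eventually_mem (hO.mem_nhds (by simpa using sub l0))]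
        with t ht using b0 _ ht (by simp [hv])
    have := ode_uniq (G := gv N g' h) (r := fun s => ((Y (s, p.2)).1)⁻¹)
      (q := fun s => π (s, p.2))
      (x := fun s => (id (s, p.2), fderiv ℝ id ((s, p.2) : R4) (Y (s, p.2))))
      (y := fun s => (b (s, p.2), fderiv ℝ b (s, p.2) (Y (s, p.2)))) (a := 0) (b := p.1)
      (cl (F := fun z => ((Y z).1)⁻¹) fun s hs =>
        (cY s hs).continuousAt.fst.inv₀ (H.ver _ (lens_sub (ln s hs))).1)
      (cl fun s hs => H.cπ.continuousAt (H.lv.isOpen.mem_nhds (inD s hs)))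
      (cl (F := fun z => (id z, fderiv ℝ id z (Y z))) fun s hs =>
        (contDiffAt_id.prodMk ((at_fd contDiffAt_id).clm_apply (cY s hs))).continuousAt)
      (cl (F := fun z => (b z, fderiv ℝ b z (Y z))) fun s hs =>
        ((cb s hs).prodMk ((at_fd (cb s hs)).clm_apply (cY s hs))).continuousAt)
      (fun s hs => (gv_cd hN H.lv' r (inD s (Ico_subset_Icc_self hs)) (by
        rw [fderiv_id]
        exact (H.gau _ (lens_sub (ln s (Ico_subset_Icc_self hs)))).2.1)).of_le (by simp))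
      (fun s hs => gq_line hN (pull_id H.lv') H.lv' r (inD s (Ioo_subset_Icc_self hs))
        (by rw [fderiv_id]; simp) (cY s (Ioo_subset_Icc_self hs))
        (H.ver _ (lens_sub (ln s (Ioo_subset_Icc_self hs))))
        (H.gau _ (lens_sub (ln s (Ioo_subset_Icc_self hs)))).2)
      (fun s hs => gq_line hN P H.lv' r ⟨⟨hs.1, hs.2.trans hp.1.2⟩,
        (ln s (Ioo_subset_Icc_self hs)).2⟩ (k _ (ln s (Ioo_subset_Icc_self hs))).1
        (cY s (Ioo_subset_Icc_self hs)) (H.ver _ (lens_sub (ln s (Ioo_subset_Icc_self hs))))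
        (H.gau _ (lens_sub (ln s (Ioo_subset_Icc_self hs)))).1)
      (by simp only [bb, a0, fderiv_id]; rfl) ⟨hp.1.1.le, le_rfl⟩
    exact (congrArg Prod.fst this).symm
  refine ⟨key, fun p hp => ?_⟩
  funext v w
  rw [P.eq p hp, key hp, EventuallyEq.fderiv_eq (mem_of_superset (oo.mem_nhds hp) key), fderiv_id]
  rfl

theorem Hy.step [Fintype ι] (hG : GUS) (hN : N.Is) (H : Hy N φ T g g' D π Y) (hT : 0 < T)
    {d : Dat} (I : ∀ y, pt 0 y ∈ clens φ T → g (pt 0 y) = g' (pt 0 y) ∧ In0 g d y ∧ In0 g' d y) :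
    ∃ δ > 0, EqOn g g' (ol φ δ) := by
  have e0 : ∀ p ∈ clens φ T, p.1 = 0 → g p = g' p := fun p hp e => by
    have := I (xs p)
    rw [← e, pt_xs] at this
    exact (this hp).1
  obtain ⟨c0, c1⟩ := H.cpt' hT.le
  obtain ⟨B1, B10, δ1, δ10, h1⟩ := nice_cpt (f := Prod.fst) 1 H.lv H.cpt fun p hp =>
    ⟨H.sub hp, contDiffAt_fst, H.spl p hp⟩
  obtain ⟨B2, B20, δ2, δ20, h2⟩ := nice_cpt (f := Prod.fst) 1 H.lv' c1 fun p hp =>
    ⟨H.sub (c0 hp), contDiffAt_fst, by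
      have := H.spl p (c0 hp)
      unfold Spl at this ⊢
      rwa [← e0 p (c0 hp) (le_antisymm hp.1.2 hp.1.1)]⟩
  obtain ⟨K, K0, hK⟩ := hG (max B1 B2)
  obtain ⟨s, s0, s1, s2, s3⟩ : ∃ s, 0 < s ∧ s ≤ T ∧ K * s ≤ 1 ∧ K * s ≤ δ2 :=
    ⟨min T (min (1 / K) (δ2 / K)), by positivity, min_le_left _ _,
      (le_div_iff₀' K0).1 ((min_le_right _ _).trans (min_le_left _ _)),
      (le_div_iff₀' K0).1 ((min_le_right _ _).trans (min_le_right _ _))⟩
  have H' := H.mono s1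
  have k := (H.cpt' s1).1
  obtain ⟨b, O, o1, o2, -, o4, o5, o6, o7⟩ := hK ι φ s g D g' D d H.lv H.lv' s0 s2 H.sφ H'.cpt
    H'.sub H'.star (fun p hp => ⟨nice_mono (h1 p (k hp) p (dist_self p ▸ δ10.le)).2 B10
      (le_max_left _ _), H'.cau p hp, fun q hq =>
        (h2 (0, p.2) ⟨⟨le_rfl, le_rfl⟩, (H'.star p hp 0 left_mem_uIcc).2⟩ q (hq.trans s3)).imp
          id fun a => nice_mono a B20 (le_max_right _ _)⟩) fun y hy => (I y (k hy)).2
  exact ⟨s, s0, (H'.fix hN o1 o2 o4 o5 o6 (fun p hp => e0 p (k (lens_sub hp)))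
    fun p hp => (o7 p hp).2.2).2⟩

theorem mem_shift {s : ℝ} (h0 : 0 ≤ s) : x ∈ clens (fun i x => φ i (x + (s, 0))) (T - s) ↔
    x + (s, 0) ∈ clens φ T ∧ 0 ≤ x.1 :=
  ⟨fun h => ⟨⟨⟨add_nonneg h.1.1 h0, le_sub_iff_add_le.1 h.1.2⟩, h.2⟩, h.1.1⟩,
    fun h => ⟨⟨h.2, le_sub_iff_add_le.2 h.1.1.2⟩, h.1.2⟩⟩

/-- The upper part of the lens, translated. -/
theorem Hy.shift (H : Hy N φ T g g' D π Y) {s : ℝ} (h0 : 0 ≤ s) :
    Hy N (fun i x => φ i (x + (s, 0))) (T - s) (fun x => g (x + (s, 0)))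
      (fun x => g' (x + (s, 0))) {x | x + (s, 0) ∈ D} (fun x => π (x + (s, 0)))
      fun x => Y (x + (s, 0)) := by
  refine ⟨lv_shift H.lv _, lv_shift H.lv' _, H.cπ.comp (by fun_prop) fun _ h => h,
    H.sY.comp (by fun_prop) fun _ h => h, fun i => (H.sφ i).comp (by fun_prop), ?_,
    fun x hx => H.sub ((mem_shift h0).1 hx).1, fun x hx t ht => ?_,
    fun x hx => H.ver _ ((mem_shift h0).1 hx).1, fun x hx => ?_, fun x hx i => ?_,
    fun x hx => (H.gau _ ((mem_shift h0).1 hx).1).imp gq_shift gq_shift⟩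
  · rw [show clens (fun i x => φ i (x + (s, 0))) (T - s) =
      Homeomorph.addRight ((s, 0) : R4) ⁻¹' clens φ T ∩ {x | 0 ≤ x.1} from
        Set.ext fun _ => mem_shift h0]
    exact ((Homeomorph.isCompact_preimage _).2 H.cpt).inter_right
      (isClosed_le continuous_const continuous_fst)
  · rw [uIcc_of_le hx.1.1] at ht
    refine (mem_shift h0).2 ⟨H.star _ ((mem_shift h0).1 hx).1 (t + s) (Icc_subset_uIcc
      ⟨add_nonneg ht.1 h0, add_le_add_left ht.2 s⟩), ht.1⟩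
  · exact spl_fst.2 (spl_fst.1 (H.spl _ ((mem_shift h0).1 hx).1))
  · rw [fderiv_comp_add_right]
    exact H.cau _ ((mem_shift h0).1 hx).1 i

/-- **UG.** -/
theorem ug (hG : GUS) : UG := by
  intro N ι _ φ T g g' D π Y d hN H I
  have e0 : ∀ p ∈ clens φ T, p.1 = 0 → g p = g' p := fun p hp e => by
    have := I (xs p)
    rw [← e, pt_xs] at this
    exact (this hp).1
  have oo := ol_open fun i => (H.sφ i).continuous
  have fe : ∀ p ∈ clens φ T, 0 < p.1 → EqOn g g' (ol φ p.1) → g p = g' p ∧ chr g p = chr g' p :=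
    fun p hp h0 e => first_eq H.lv H.lv' (oo _) e (H.sub hp) (H.clo hp h0)
  have mo : ∀ {s t}, s ≤ t → ol φ s ⊆ ol φ t := fun h p hp => ⟨⟨hp.1.1, hp.1.2.trans_le h⟩, hp.2⟩
  have key : Icc 0 T ⊆ {s | EqOn g g' (ol φ s)} := by
    refine IsClosed.Icc_subset_of_forall_exists_gt (IsClosed.inter ?_ isClosed_Icc)
      (fun p hp => absurd hp.1.2 hp.1.1.not_gt) fun s hs t ht => ?_
    · refine isClosed_of_closure_subset fun s hs p hp => ?_
      obtain ⟨t, h1, h2⟩ := mem_closure_iff_nhds.1 hs _ (Ioi_mem_nhds hp.1.2)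
      exact h2 ⟨⟨hp.1.1, h1⟩, hp.2⟩
    suffices ∃ δ > 0, EqOn g g' (ol φ (s + δ)) by
      obtain ⟨δ, δ0, e⟩ := this
      exact ⟨min t (s + δ), e.mono (mo (min_le_right _ _)), lt_min ht (lt_add_of_pos_right s δ0),
        min_le_left _ _⟩
    rcases hs.2.1.eq_or_lt with rfl | s0
    · simpa only [zero_add] using H.step hG hN hs.2.2 I
    have H' := H.shift s0.le
    have f1 : ∀ p ∈ clens φ T, p.1 = s → g p = g' p ∧ chr g p = chr g' p := fun p hp e =>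
      fe p hp (e ▸ s0) (e ▸ hs.1)
    have f2 := fun y hy => f1 (pt 0 y + (s, 0)) ((mem_shift s0.le).1 hy).1 (zero_add s)
    obtain ⟨d', hd⟩ := in0_ex (g' := fun x => g' (x + (s, 0))) H'.lv
      (S := {y | pt 0 y ∈ clens (fun i x => φ i (x + (s, 0))) (T - s)}) fun y hy =>
        ⟨H'.sub hy, H'.spl _ hy, (f2 y hy).1, by rw [chr_shift, chr_shift, (f2 y hy).2]⟩
    obtain ⟨δ, δ0, e⟩ := H'.step hG hN (sub_pos.2 hs.2.2) fun y hy => ⟨(f2 y hy).1, hd y hy⟩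
    refine ⟨δ, δ0, fun p hp => ?_⟩
    rcases lt_trichotomy p.1 s with c | c | c
    · exact hs.1 ⟨⟨hp.1.1, c⟩, hp.2⟩
    · exact (f1 p ⟨⟨hp.1.1.le, c.trans_le hs.2.2.le⟩, fun i => (hp.2 i).le⟩ c).1
    · have := e (x := p - (s, 0)) ⟨⟨sub_pos.2 c, sub_lt_iff_lt_add'.2 hp.1.2⟩, fun i => by
        simpa only [sub_add_cancel] using hp.2 i⟩
      simpa only [sub_add_cancel] using this
  intro p hp
  rcases hp.1.1.eq_or_lt with c | c
  · exact e0 p hp c.symm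
  · exact (fe p hp c (key hp.1)).1

/-- The version with equality to first order on the base. -/
theorem ug1 [Fintype ι] (hG : GUS) (hN : N.Is) (H : Hy N φ T g g' D π Y)
    (I : ∀ p ∈ clens φ T, p.1 = 0 → g p = g' p ∧ chr g p = chr g' p) :
    EqOn g g' (clens φ T) := by
  obtain ⟨d, hd⟩ := in0_ex (g' := g') H.lv (S := {y | pt 0 y ∈ clens φ T}) fun y hy =>
    ⟨H.sub hy, H.spl _ hy, I _ hy rfl⟩
  exact ug hG N ι φ T g g' D π Y d hN H fun y hy => ⟨(I _ hy rfl).1, hd y hy⟩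

end Vale.Agent.P354UG
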